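import Vale.Agent.P339.R2.H375.Defs

/-!
P339: the two-point bound up to a vector `θ`, and the squared average of a function of mean zero
over a line.
-/

namespace Vale.Agent.P339.R2.H197

open Finset Vale.Agent.Lib.PCP Vale.Agent.Lib.PCP.HA Vale.Agent.P339.H283 Vale.Agent.P339.H937
  Vale.Agent.P339.R2.H375

variable {l : ℕ} {I : Type} [Fintype I] [DecidableEq I]

omit [Fintype I] [DecidableEq I] in
lemma ind_or_eq {θ z : K l} (hθ : θ ≠ 0) :
    ind (z = 0 ∨ z = θ) = ind (z = 0) + ind (z + θ = 0) := by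
  have e : z + θ = 0 ↔ z = θ := K_add_eq_zero
  by_cases h0 : z = 0
  · rw [ind_true (Or.inl h0), ind_true h0, ind_false (fun h => hθ (by
      rw [h0, zero_add] at h
      exact h)), add_zero]
  · by_cases h1 : z = θ
    · rw [ind_true (Or.inr h1), ind_false h0, ind_true (e.2 h1), zero_add]
    · rw [ind_false (fun h => h.elim h0 h1), ind_false h0, ind_false (fun h => h1 (e.1 h)),
        add_zero]

lemma sum_pl2_sq {θ : K l} (hθ : θ ≠ 0) (u : (I → K l) → ℝ) (G : (I → K l) → K l)
    (y : I → ZMod 2) (b : ZMod 2) :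
    (avg fun M : I → K l => ∑ m, pl2 u G θ M y m b ^ 2) =
      avg fun s : K l => (1 + sgn (θ ⬝ᵥ s)) ^ 2 *
        ∑ L, ft bV (gs u G s) L ^ 2 * ind (evl y L = b • s) := by
  have h1 : ∀ M : I → K l, ∑ m, pl2 u G θ M y m b ^ 2 =
      avg fun s : K l => ((1 + sgn (θ ⬝ᵥ s)) *
        avg fun φ : K l => gs u G s (M + tns y φ) * sgn ((b • s) ⬝ᵥ φ)) ^ 2 := by
    intro M
    rw [← pairing_K.parseval_sq]
    refine Finset.sum_congr rfl fun m _ => ?_
    congr 1
    unfold ft pl2
    have e1 : ∀ s : K l, ((1 + sgn (θ ⬝ᵥ s)) *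
        avg fun φ : K l => gs u G s (M + tns y φ) * sgn ((b • s) ⬝ᵥ φ)) *
        sgn (m ⬝ᵥ s) = avg fun φ : K l => u (M + tns y φ) *
          (sgn ((G (M + tns y φ) + (m + b • φ)) ⬝ᵥ s) +
            sgn ((G (M + tns y φ) + (m + b • φ) + θ) ⬝ᵥ s)) := by
      intro s
      rw [← avg_const_mul, ← avg_mul_const]
      refine avg_congr fun φ => ?_
      unfold gs
      rw [add_dotProduct _ θ, sgn_add, add_dotProduct, add_dotProduct, sgn_add, sgn_add,
        dotProduct_comm s, smul_dotProduct, smul_dotProduct, dotProduct_comm φ s]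
      ring
    simp only [e1]
    rw [avg_comm]
    refine avg_congr fun φ => ?_
    rw [avg_const_mul, avg_add, pairing_K.avg_sgn, pairing_K.avg_sgn]
    congr 1
    exact ind_or_eq hθ
  simp only [h1]
  rw [avg_comm]
  refine avg_congr fun s => ?_
  simp only [mul_pow]
  rw [avg_const_mul]
  congr 1
  exact line_avg (gs u G s) (b • s) y

lemma avg_sgn_sq {θ : K l} (hθ : θ ≠ 0) : (avg fun s : K l => (1 + sgn (θ ⬝ᵥ s)) ^ 2) = 2 := by
  have e1 : ∀ s : K l, (1 + sgn (θ ⬝ᵥ s)) ^ 2 = 2 + 2 * sgn (θ ⬝ᵥ s) := by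
    intro s
    have := sgn_sq (θ ⬝ᵥ s)
    nlinarith
  simp only [e1]
  rw [avg_add, avg_const, avg_const_mul, pairing_K.avg_sgn, ind_false hθ]
  norm_num

/-- **The two-point bound up to `θ`** (copy of `H937.two_point`; Parseval over `s ⬝ᵥ θ = 0`). -/
theorem two_point2 {θ : K l} (hθ : θ ≠ 0) (u : (I → K l) → ℝ) (G : (I → K l) → K l) :
    (avg fun y : I → ZMod 2 => avg fun M : I → K l =>
      ∑ b, 1 / 2 * ∑ m, pl2 u G θ M y m b ^ 2) ≤
      (1 / 2 + 4 / 2 ^ l) * (avg fun M => u M ^ 2) + omg u G := by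
  classical
  set μ : ℝ := avg fun M => u M ^ 2 with hμ
  have hμ0 : 0 ≤ μ := avg_nonneg fun M => sq_nonneg _
  have h1 : (avg fun y : I → ZMod 2 => avg fun M : I → K l =>
      ∑ b, 1 / 2 * ∑ m, pl2 u G θ M y m b ^ 2) =
      avg fun s : K l => 1 / 2 * (1 + sgn (θ ⬝ᵥ s)) ^ 2 * ∑ L, ft bV (gs u G s) L ^ 2 *
        (avg fun y : I → ZMod 2 => ∑ b : ZMod 2, ind (evl y L = b • s)) := by
    have e1 : ∀ y : I → ZMod 2, (avg fun M : I → K l =>
        ∑ b, 1 / 2 * ∑ m, pl2 u G θ M y m b ^ 2) =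
        avg fun s : K l => 1 / 2 * (1 + sgn (θ ⬝ᵥ s)) ^ 2 * ∑ L, ft bV (gs u G s) L ^ 2 *
          ∑ b : ZMod 2, ind (evl y L = b • s) := by
      intro y
      rw [avg_sum]
      simp only [avg_const_mul, sum_pl2_sq hθ]
      simp only [← avg_const_mul]
      rw [← avg_sum]
      refine avg_congr fun s => ?_
      rw [Finset.mul_sum]
      simp only [Finset.mul_sum]
      rw [Finset.sum_comm]
      refine Finset.sum_congr rfl fun L _ => ?_
      refine Finset.sum_congr rfl fun b _ => ?_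
      ring
    simp only [e1]
    rw [avg_comm]
    refine avg_congr fun s => ?_
    rw [avg_const_mul, avg_sum]
    congr 1
    exact Finset.sum_congr rfl fun L _ => by rw [avg_const_mul]
  rw [h1]
  have hb : ∀ (y : I → ZMod 2) (L : I → K l) (s : K l), ∑ b : ZMod 2, ind (evl y L = b • s) =
      ind (evl y L = 0) + ind (evl y L = s) := by
    intro y L s
    have : (Finset.univ : Finset (ZMod 2)) = {0, 1} := by decide
    rw [this, Finset.sum_pair (by decide), zero_smul, one_smul]
  simp only [hb]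
  have hw : ∀ s : K l, (1 + sgn (θ ⬝ᵥ s)) ^ 2 ≤ 4 := by
    intro s
    have := sgn_sq (θ ⬝ᵥ s)
    nlinarith [sq_nonneg (1 - sgn (θ ⬝ᵥ s))]
  have h2 : ∀ s : K l, 1 / 2 * (1 + sgn (θ ⬝ᵥ s)) ^ 2 * ∑ L, ft bV (gs u G s) L ^ 2 *
      (avg fun y : I → ZMod 2 => ind (evl y L = 0) + ind (evl y L = s)) ≤
      (1 / 4 * μ * (1 + sgn (θ ⬝ᵥ s)) ^ 2 + (if s = 0 then 0 else
        ∑ t : I → ZMod 2, ft bV (gs u G s) (tns t s) ^ 2)) + 4 * μ * ind (s = 0) := by
    intro s
    have hw0 := sq_nonneg (1 + sgn (θ ⬝ᵥ s))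
    have hw4 := hw s
    obtain ⟨W, hW⟩ : ∃ W, W = (1 + sgn (θ ⬝ᵥ s)) ^ 2 := ⟨_, rfl⟩
    rw [← hW] at hw0 hw4 ⊢
    by_cases hs : s = 0
    · rw [if_pos hs, ind_true hs]
      have h3 : ∑ L, ft bV (gs u G s) L ^ 2 *
          (avg fun y : I → ZMod 2 => ind (evl y L = 0) + ind (evl y L = s)) ≤
          ∑ L, ft bV (gs u G s) L ^ 2 * 2 := by
        refine Finset.sum_le_sum fun L _ => mul_le_mul_of_nonneg_left ?_ (sq_nonneg _)
        refine avg_le_of_le (by norm_num) fun y => ?_
        linarith [ind_le_one (evl y L = 0), ind_le_one (evl y L = s)]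
      rw [← Finset.sum_mul, sum_ft_gs] at h3
      nlinarith [mul_nonneg hw0 hμ0, mul_nonneg (sub_nonneg.2 hw4) hμ0,
        mul_le_mul_of_nonneg_left h3 hw0]
    · rw [if_neg hs, ind_false hs]
      have h3 : ∑ L, ft bV (gs u G s) L ^ 2 *
          (avg fun y : I → ZMod 2 => ind (evl y L = 0) + ind (evl y L = s)) ≤
          ∑ L, ft bV (gs u G s) L ^ 2 * (1 / 2 + 1 / 2 * ind (∃ t : I → ZMod 2, L = tns t s)) := by
        refine Finset.sum_le_sum fun L _ => mul_le_mul_of_nonneg_left ?_ (sq_nonneg _)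
        by_cases hL : ∃ t : I → ZMod 2, L = tns t s
        · rw [ind_true hL]
          refine avg_le_of_le (by norm_num) fun y => ?_
          by_cases h0 : evl y L = 0
          · rw [ind_true h0, ind_false (fun h => hs (by rw [← h, h0]))]
            norm_num
          · rw [ind_false h0]
            linarith [ind_le_one (evl y L = s)]
        · rw [ind_false hL]
          linarith [avg_ind_le_half hs hL]
      have h4 : ∑ L, ft bV (gs u G s) L ^ 2 *
          (1 / 2 + 1 / 2 * ind (∃ t : I → ZMod 2, L = tns t s)) = 1 / 2 * μ +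
          1 / 2 * ∑ L, ft bV (gs u G s) L ^ 2 * ind (∃ t : I → ZMod 2, L = tns t s) := by
        rw [hμ, ← sum_ft_gs u G s, Finset.mul_sum, Finset.mul_sum, ← Finset.sum_add_distrib]
        exact Finset.sum_congr rfl fun L _ => by ring
      have h5 : ∑ L, ft bV (gs u G s) L ^ 2 * ind (∃ t : I → ZMod 2, L = tns t s) =
          ∑ t : I → ZMod 2, ft bV (gs u G s) (tns t s) ^ 2 := by
        have e1 : ∀ L, ft bV (gs u G s) L ^ 2 * ind (∃ t : I → ZMod 2, L = tns t s) =
            if L ∈ (Finset.univ : Finset (I → ZMod 2)).image (fun t => tns t s) then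
              ft bV (gs u G s) L ^ 2 else 0 := by
          intro L
          unfold ind
          have : (∃ t : I → ZMod 2, L = tns t s) ↔
              L ∈ (Finset.univ : Finset (I → ZMod 2)).image (fun t => tns t s) := by
            simp [eq_comm]
          by_cases h : ∃ t : I → ZMod 2, L = tns t s
          · rw [if_pos h, if_pos (this.1 h), mul_one]
          · rw [if_neg h, if_neg (fun h' => h (this.2 h')), mul_zero]
        simp only [e1]
        rw [Finset.sum_ite_mem, Finset.univ_inter, Finset.sum_image]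
        intro t _ t' _ h
        exact tns_injective hs h
      rw [h4, h5] at h3
      have h6 : 0 ≤ ∑ t : I → ZMod 2, ft bV (gs u G s) (tns t s) ^ 2 :=
        Finset.sum_nonneg fun t _ => sq_nonneg _
      nlinarith [mul_le_mul_of_nonneg_left h3 hw0, mul_nonneg (sub_nonneg.2 hw4) h6]
  refine (avg_mono h2).trans ?_
  rw [avg_add, avg_add, avg_const_mul, avg_const_mul, avg_K_eq, avg_sgn_sq hθ]
  unfold omg
  refine le_of_eq ?_
  ring

/-- A function of mean zero (copy of `H937.line_sq_le`). -/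
theorem line_sq_zero (g : (I → K l) → ℝ) (hg : avg g = 0) :
    (avg fun y : I → ZMod 2 => avg fun M : I → K l => (avg fun φ : K l => g (M + tns y φ)) ^ 2) ≤
      1 / 2 * avg fun M => g M ^ 2 := by
  classical
  have h1 : ∀ y : I → ZMod 2, (avg fun M : I → K l => (avg fun φ : K l => g (M + tns y φ)) ^ 2) =
      ∑ L, ft bV g L ^ 2 * ind (evl y L = 0) := by
    intro y
    rw [← line_avg g 0 y]
    refine avg_congr fun M => ?_
    congr 1
    refine avg_congr fun φ => ?_
    rw [zero_dotProduct, sgn_zero, mul_one]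
  simp only [h1]
  rw [avg_sum]
  have h4 : ft bV g 0 = 0 := by
    rw [← hg]
    unfold ft
    refine avg_congr fun M => ?_
    rw [pairing_V.zero_left, sgn_zero, mul_one]
  have h2 : ∀ L : I → K l, (avg fun y : I → ZMod 2 => ft bV g L ^ 2 * ind (evl y L = 0)) ≤
      1 / 2 * ft bV g L ^ 2 := by
    intro L
    rw [avg_const_mul]
    by_cases hL : L = 0
    · rw [hL, h4]
      norm_num
    · rw [mul_comm (1 / 2 : ℝ)]
      refine mul_le_mul_of_nonneg_left ?_ (sq_nonneg _)
      obtain ⟨i, hi'⟩ := Function.ne_iff.1 hL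
      have hi : L i ≠ 0 := hi'
      set Φ : (I → ZMod 2) → ℝ := fun y => ind (evl y L = 0) with hΦ
      have h3 := avg_add_right (Pi.single i 1 : I → ZMod 2) Φ
      have h5 : avg (fun y => Φ y + Φ (y + Pi.single i 1)) ≤ 1 := by
        refine avg_le_of_le zero_le_one fun y => ?_
        simp only [hΦ]
        rw [evl_single_add]
        by_cases h0 : evl y L = 0
        · rw [h0, zero_add, ind_true rfl, ind_false hi]
          norm_num
        · rw [ind_false h0]
          linarith [ind_le_one (evl y L + L i = 0)]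
      rw [avg_add, h3] at h5
      linarith
  refine (Finset.sum_le_sum fun L _ => h2 L).trans (le_of_eq ?_)
  rw [← Finset.mul_sum, pairing_V.parseval_sq]

end Vale.Agent.P339.R2.H197
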